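import Vale.Agent.P032.H437.SatG

/-!
# P032: the patch with 49 points for two times

The points `7 a + b`, `a, b < 7`: the sum of one of the seven vectors `0, e_0, .., e_5` of the first
class and one of the second class.
-/

namespace Vale.Agent.P032.H437

/-- the seven vectors -/
def v7 (n : ℕ) : ℤ × ℤ :=
  if n = 0 then (0, 0) else (dx (f6 (n - 1)), dy (f6 (n - 1)))

def pt49 (p : ℕ) : QK 2 := fun c => if c = 0 then v7 (p / 7) else v7 (p % 7)

/-- the neighbours, packed (255: none) -/
def nb49t : ℕ :=
  0xffff2f2a2bffffff29060dffffffff2e2a30ffff28050cff2fffffff2d2affff27040bff2a2effffff2cffff26030aff2b2a2dffffffffff250209ffff302a2cffffffff240108ff302f2e2d2c2bffff230007ffffff282324ffffffff220630ffffff272329ffffff21052f28ffffff2623ffffff20042e2327ffffff25ffffff1f032d242326ffffffffffff1e022cff292325ffffffffff1d012b292827262524ffffff1c002affff211c1dff29ffffff1b06ffffff201c2228ffffff1a0521ffffff1f1c27ffffff19041c20ffffff1e26ffffff18031d1c1fffffff25ffffff1702ff221c1effff24ffffff16012221201f1e1d23ffffff1500ffff1a1516ff0622ffffff1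4ffffff19151b0521ffffff131affffff18150420ffffff121519ffffff17031fffffff11161518ffffff021effffff10ff1b1517ffff011dffffff0f1b1a19181716001cffffff0effff130e0fff0d061bffffffffffff120e140c051affffff13ffffff110e0b0419ffffff0e12ffffff100a0318ffffff0f0e11ffffff090217ffffffff140e10ffff080116ffffff14131211100f070015ffffffffff0c0708ffff300614ffffffffff0b070dff2f0513ffff0cffffff0a07ff2e0412ffff070bffffff09ff2d0311ffff08070affffffff2c0210ffffff0d0709ffffff2b010fffff0d0c0b0a0908ff2a000effffffff050001ff3029221b140dffffff0400062f28211a130c05ffffff03002e272019120b0004ffffff022d261f18110a010003ffffff2c251e171009ff060002ffff2b241d160f080605040302012a231c150e07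

def nb49 (p e : ℕ) : ℕ :=
  Nat.land (Nat.shiftRight nb49t (Nat.mul 8 (Nat.add (Nat.mul 12 p) e))) 255

theorem spec49 : ∀ p < 49, ∀ e < 12, nb49 p e < 49 →
    pt49 (nb49 p e) = stK (cl 2 e) (pt49 p) (f6 e) := by decide +kernel

/-- **the patch** -/
def G49 : Geo 2 where
  np := 49
  pt := pt49
  nb := nb49
  zero := by
    funext c
    unfold pt49 q0
    fin_cases c <;> rfl
  np0 := by decide
  spec := fun p hp e he hu => spec49 p hp e he hu

end Vale.Agent.P032.H437
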